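import Vale.Agent.P238.Main

open Filter

theorem Vale.Agent.Results.P238.EditDistLower.result :
    (∃ c : ℝ, 0 < c ∧ ∀ᶠ n : ℕ in atTop,
      c * Real.log (n : ℝ) ^ 2 / Real.log (Real.log (n : ℝ)) ≤ Vale.Agent.P238.c1 n) ∧
    Tendsto (fun n : ℕ => Vale.Agent.P238.c1 n / Real.log (n : ℝ)) atTop atTop :=
  ⟨Vale.Agent.P238.c1_lower, Vale.Agent.P238.c1_div_log_tendsto⟩
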